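import Vale.Agent.P325.H111.K2.Stmts

/-!
# The inequality for a fixed tuple of constraints
-/

namespace Vale.Agent.P325.K2.H462

open Finset Vale.Agent.Lib.PCP Vale.Agent.P342 Vale.Agent.P325.K2

section

variable {n N r L : ℕ} [NeZero n] [NeZero L]

/-- The cut-off significance of the coarse group `θ`. -/
noncomputable def psi (τ : ℝ) (A : Asg n N r) (e : Win n N → Ed r) (θ : Lab n N r) (c : Win n N)
    (a : Fin n → Fin L) : ℝ :=
  min 1 (max 0 (2 * sig A e c a θ / τ - 1))

theorem psi_nonneg (τ : ℝ) (A : Asg n N r) (e : Win n N → Ed r) (θ : Lab n N r) (c : Win n N)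
    (a : Fin n → Fin L) : 0 ≤ psi τ A e θ c a :=
  le_min zero_le_one (le_max_left _ _)

theorem psi_le_one (τ : ℝ) (A : Asg n N r) (e : Win n N → Ed r) (θ : Lab n N r) (c : Win n N)
    (a : Fin n → Fin L) : psi τ A e θ c a ≤ 1 :=
  min_le_left _ _

theorem sInf_nonneg' {ι : Type} [Fintype ι] [DecidableEq ι] (f : (ι → Bool) → ℝ) (A : Finset ι) :
    0 ≤ sInf f A := by
  unfold sInf
  exact sum_nonneg fun S _ => by split_ifs <;> positivity

theorem sig_nonneg (A : Asg n N r) (e : Win n N → Ed r) (c : Win n N) (a : Fin n → Fin L)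
    (θ : Lab n N r) : 0 ≤ sig A e c a θ := sInf_nonneg' _ _

theorem sign_Fz (A : Asg n N r) (e : Win n N → Ed r) (c : Win n N) (a : Fin n → Fin L) :
    IsSign (Fz A e c a) := by
  intro y
  unfold Fz FF sg
  split_ifs <;> simp

theorem psi_supp {τ : ℝ} (hτ : 0 < τ) {A : Asg n N r} {e : Win n N → Ed r} {θ : Lab n N r}
    {c : Win n N} {a : Fin n → Fin L} (h : psi τ A e θ c a ≠ 0) : τ / 2 ≤ sig A e c a θ := by
  by_contra hc
  push Not at hc
  apply h
  unfold psi
  have h1 : 2 * sig A e c a θ / τ - 1 ≤ 0 := by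
    rw [sub_nonpos, div_le_one hτ]
    linarith
  rw [max_eq_left h1]
  exact min_eq_right zero_le_one

theorem psi_one {τ : ℝ} (hτ : 0 < τ) {A : Asg n N r} {e : Win n N → Ed r} {θ : Lab n N r}
    {c : Win n N} {a : Fin n → Fin L} (h : τ ≤ sig A e c a θ) : psi τ A e θ c a = 1 := by
  unfold psi
  have h1 : 1 ≤ 2 * sig A e c a θ / τ - 1 := by
    rw [le_sub_iff_add_le, le_div_iff₀ hτ]
    linarith
  rw [max_eq_right (by linarith), min_eq_left h1]

theorem clip_lip (x y : ℝ) : min 1 (max 0 x) - min 1 (max 0 y) ≤ |x - y| := by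
  have h1 := le_abs_self (x - y)
  have h2 := abs_nonneg (x - y)
  rcases le_total x 0 with hx | hx <;> rcases le_total y 0 with hy | hy <;>
    simp only [max_eq_left, max_eq_right, hx, hy]
  · simp
  · have : min 1 y ≥ 0 := le_min zero_le_one hy
    have h3 : min (1 : ℝ) 0 = 0 := min_eq_right zero_le_one
    linarith
  · have h3 : min (1 : ℝ) 0 = 0 := min_eq_right zero_le_one
    have h4 : min 1 x ≤ x := min_le_right _ _
    linarith
  · rcases le_total x 1 with h3 | h3 <;> rcases le_total y 1 with h4 | h4 <;>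
      simp only [min_eq_left, min_eq_right, h3, h4] <;> linarith

theorem psi_lip (hL : LipThm) {τ : ℝ} (hτ : 0 < τ) (A : Asg n N r) (e : Win n N → Ed r)
    (θ : Lab n N r) (c c' : Win n N) (a a' : Fin n → Fin L) :
    psi τ A e θ c a - psi τ A e θ c' a' ≤
      16 / τ * Pr fun y : Sd n N r L => Fz A e c a y ≠ Fz A e c' a' y := by
  have h1 := hL _ (Fz A e c a) (Fz A e c' a') (sign_Fz A e c a) (sign_Fz A e c' a')
    {i | cgrp (prj e) i = θ}
  have h2 := clip_lip (2 * sig A e c a θ / τ - 1) (2 * sig A e c' a' θ / τ - 1)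
  have h3 : |2 * sig A e c a θ / τ - 1 - (2 * sig A e c' a' θ / τ - 1)| =
      2 / τ * |sig A e c a θ - sig A e c' a' θ| := by
    rw [show 2 * sig A e c a θ / τ - 1 - (2 * sig A e c' a' θ / τ - 1) =
      2 / τ * (sig A e c a θ - sig A e c' a' θ) by ring, abs_mul,
      abs_of_pos (by positivity : 0 < 2 / τ)]
  unfold psi
  refine h2.trans ?_
  rw [h3]
  calc 2 / τ * |sig A e c a θ - sig A e c' a' θ| ≤
      2 / τ * (8 * Pr fun y : Sd n N r L => Fz A e c a y ≠ Fz A e c' a' y) :=
        mul_le_mul_of_nonneg_left h1 (by positivity)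
    _ = _ := by ring

theorem sum3 {α β γ : Type} [Fintype α] [Fintype β] [Fintype γ] (f : α → β → γ → ℝ) :
    ∑ x, ∑ y, ∑ z, f x y z = ∑ y, ∑ z, ∑ x, f x y z := by
  rw [sum_comm]
  exact sum_congr rfl fun y _ => sum_comm

theorem sum_sig (hS : SumThm) (A : Asg n N r) (e : Win n N → Ed r) (c : Win n N)
    (a : Fin n → Fin L) : ∑ θ, sig A e c a θ ≤ 1 :=
  hS _ (Lab n N r) (Fz A e c a) (sign_Fz A e c a) (cgrp (prj e))

open Classical in
theorem count_psi (hS : SumThm) {τ : ℝ} (hτ : 0 < τ) (A : Asg n N r) (e : Win n N → Ed r)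
    (c : Win n N) (a : Fin n → Fin L) :
    ∑ θ, (if psi τ A e θ c a ≠ 0 then (1 : ℝ) else 0) ≤ 2 / τ := by
  have h1 : ∑ θ, (if psi τ A e θ c a ≠ 0 then (1 : ℝ) else 0) ≤
      ∑ θ, 2 / τ * sig A e c a θ := by
    refine sum_le_sum fun θ _ => ?_
    split_ifs with h
    · have := psi_supp hτ h
      rw [div_mul_eq_mul_div, le_div_iff₀ hτ]
      linarith
    · exact mul_nonneg (by positivity) (sig_nonneg A e c a θ)
  rw [← mul_sum] at h1
  have h2 := sum_sig hS A e c a
  calc _ ≤ 2 / τ * ∑ θ, sig A e c a θ := h1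
    _ ≤ 2 / τ * 1 := mul_le_mul_of_nonneg_left h2 (by positivity)
    _ = _ := mul_one _

theorem sum_psi_le (hS : SumThm) {τ : ℝ} (hτ : 0 < τ) (A : Asg n N r) (e : Win n N → Ed r)
    (c : Win n N) (a : Fin n → Fin L) : ∑ θ, psi τ A e θ c a ≤ 2 / τ := by
  classical
  refine le_trans (sum_le_sum fun θ _ => ?_) (count_psi hS hτ A e c a)
  split_ifs with h
  · exact psi_le_one _ _ _ _ _ _
  · push Not at h
    exact h.le

theorem c1_nonneg (A : Asg n N r) (e : Win n N → Ed r) (c : Win n N) (a : Fin n → Fin L) :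
    0 ≤ c1 A e c a := sum_nonneg fun _ _ => Pr_nonneg _

omit [NeZero n] [NeZero L] in
theorem pairs_nonneg {K V : Type} [Fintype K] [DecidableEq K] [Fintype V] [DecidableEq V]
    (ad : V → Fin n → K) (a : Fin n → Fin L) : 0 ≤ pairs n L ad a := by
  unfold pairs
  exact sum_nonneg fun ν _ => sum_nonneg fun ν' _ => by
    split_ifs
    · exact le_rfl
    · exact Pr_nonneg _

theorem c3_nonneg (A : Asg n N r) (e : Win n N → Ed r) (c : Win n N) (a : Fin n → Fin L)
    (k : Fin n) (j : Fin N) : 0 ≤ c3 A e c a k j := by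
  unfold c3
  split_ifs
  · exact Pr_nonneg _
  · exact le_rfl

theorem bet_nonneg (A : Asg n N r) (e : Win n N → Ed r) (c : Win n N) (a : Fin n → Fin L) :
    0 ≤ bet A e c a := add_nonneg (c1_nonneg A e c a) (pairs_nonneg _ a)

/-- The jump in the third test, summed over the coarse groups. -/
theorem sum_jump (hS : SumThm) (hL : LipThm) {τ : ℝ} (hτ : 0 < τ) (A : Asg n N r)
    (e : Win n N → Ed r) (c : Win n N) (a : Fin n → Fin L) (k : Fin n) (hk : a k = 0) (j : Fin N) :
    ∑ θ, max 0 (psi τ A e θ c a - psi τ A e θ (Function.update c k j) a) ≤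
      32 / τ ^ 2 * c3 A e c a k j + if a = 0 then 2 / τ else 0 := by
  classical
  by_cases ha : a = 0
  · rw [if_pos ha]
    have h0 := c3_nonneg A e c a k j
    have h1 : ∑ θ, max 0 (psi τ A e θ c a - psi τ A e θ (Function.update c k j) a) ≤
        ∑ θ, psi τ A e θ c a := by
      refine sum_le_sum fun θ _ => max_le (psi_nonneg _ _ _ _ _ _) ?_
      have := psi_nonneg τ A e θ (Function.update c k j) a
      linarith
    have h2 := sum_psi_le hS hτ A e c a
    have h3 : 0 ≤ 32 / τ ^ 2 * c3 A e c a k j := mul_nonneg (by positivity) h0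
    linarith
  · rw [if_neg ha, add_zero]
    have h3 : c3 A e c a k j =
        Pr fun y : Sd n N r L => Fz A e c a y ≠ Fz A e (Function.update c k j) a y := by
      unfold c3
      rw [if_pos ⟨hk, ha⟩]
    rw [h3]
    set P := Pr fun y : Sd n N r L => Fz A e c a y ≠ Fz A e (Function.update c k j) a y with hP
    have hP0 : 0 ≤ P := Pr_nonneg _
    calc ∑ θ, max 0 (psi τ A e θ c a - psi τ A e θ (Function.update c k j) a)
        ≤ ∑ θ, (if psi τ A e θ c a ≠ 0 then (1 : ℝ) else 0) * (16 / τ * P) := by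
          refine sum_le_sum fun θ _ => ?_
          split_ifs with h
          · rw [one_mul]
            exact max_le (by positivity) (psi_lip hL hτ A e θ c (Function.update c k j) a a)
          · push Not at h
            rw [h, zero_mul]
            have := psi_nonneg τ A e θ (Function.update c k j) a
            exact max_le le_rfl (by linarith)
      _ = (∑ θ, (if psi τ A e θ c a ≠ 0 then (1 : ℝ) else 0)) * (16 / τ * P) := by
          rw [sum_mul]
      _ ≤ 2 / τ * (16 / τ * P) :=
          mul_le_mul_of_nonneg_right (count_psi hS hτ A e c a) (by positivity)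
      _ = 32 / τ ^ 2 * P := by
          field_simp
          ring

open Classical in
/-- The inequality for a fixed tuple of constraints. -/
theorem per_e (hP : PruneThm) (hS : SumThm) (hL : LipThm) (hW : WinThm) (hG : SigThm)
    [NeZero N] [NeZero r] {E τ : ℝ} (hτ : 0 < τ) (hst : StructAt E (1 / 2) τ) (A : Asg n N r)
    (hA : Odd' A) (e : Win n N → Ed r)
    (hsupp : ∀ θ, (#{z : Win n N × (Fin n → Fin L) | psi τ A e θ z.1 z.2 ≠ 0} : ℝ) *
      (4 * n) ^ (2 * n) < (N : ℝ) ^ n * (L : ℝ) ^ n) :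
    ∑ c : Win n N, ∑ a : Fin n → Fin L, (if en A e c a ≤ E then (1 : ℝ) else 0) ≤
      3 * L * (32 / τ ^ 2) * ∑ c : Win n N, ∑ a : Fin n → Fin L, bet A e c a +
      2 * L * (32 / τ ^ 2 / N * ∑ c : Win n N, ∑ a : Fin n → Fin L, ∑ k, ∑ j, c3 A e c a k j +
        n * (N : ℝ) ^ n * (2 / τ)) := by
  have hn : 0 < n := Nat.pos_of_ne_zero (NeZero.ne n)
  have hN : 0 < N := Nat.pos_of_ne_zero (NeZero.ne N)
  have hLp : 0 < L := Nat.pos_of_ne_zero (NeZero.ne L)
  have hNR : (0 : ℝ) < N := by exact_mod_cast hN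
  have hLR : (0 : ℝ) < L := by exact_mod_cast hLp
  -- the displacement
  let D : Lab n N r → Win n N → (Fin n → Fin L) → ℝ := fun θ c a =>
    16 / τ * bet A e c a * (if psi τ A e θ c a ≠ 0 then 1 else 0)
  have hD0 : ∀ θ c a, 0 ≤ D θ c a := by
    intro θ c a
    have := bet_nonneg A e c a
    simp only [D]
    split_ifs
    · positivity
    · simp
  have hadj : ∀ θ c a a', Adj1 a a' → psi τ A e θ c a ≤ psi τ A e θ c a' + D θ c a := by
    intro θ c a a' h
    by_cases h0 : psi τ A e θ c a = 0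
    · rw [h0]
      exact add_nonneg (psi_nonneg _ _ _ _ _ _) (hD0 θ c a)
    · have h1 := psi_lip hL hτ A e θ c c a a'
      have h2 := ((hW n N r L A e c a).2 a' h)
      simp only [D, if_pos (show psi τ A e θ c a ≠ 0 from h0), mul_one]
      have h3 : 16 / τ * (Pr fun y : Sd n N r L => Fz A e c a y ≠ Fz A e c a' y) ≤
          16 / τ * bet A e c a := mul_le_mul_of_nonneg_left h2 (by positivity)
      linarith
  have hmain : ∀ θ, ∑ c : Win n N, ∑ a : Fin n → Fin L, psi τ A e θ c a ≤
      3 * L * ∑ c : Win n N, ∑ a : Fin n → Fin L, D θ c a +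
      2 * (L * ∑ k, ∑ c : Win n N, ∑ a : Fin n → Fin L,
        if (a k : ℕ) = 0 then
          (∑ j, max 0 (psi τ A e θ c a - psi τ A e θ (Function.update c k j) a)) / N
        else 0) := by
    intro θ
    exact hP n N L hn hN hLp (psi τ A e θ) (D θ) (fun c a => psi_nonneg _ _ _ _ _ _)
      (hD0 θ) (hadj θ) (hsupp θ)
  have hsum := sum_le_sum fun θ (_ : θ ∈ (univ : Finset (Lab n N r))) => hmain θ
  -- the left side
  have hleft : ∑ c : Win n N, ∑ a : Fin n → Fin L, (if en A e c a ≤ E then (1 : ℝ) else 0) ≤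
      ∑ θ, ∑ c : Win n N, ∑ a : Fin n → Fin L, psi τ A e θ c a := by
    rw [sum3 fun θ c a => psi τ A e θ c a]
    refine sum_le_sum fun c _ => sum_le_sum fun a _ => ?_
    split_ifs with h
    · obtain ⟨θ, hθ⟩ := hG n N r L E τ hst A hA e c a h
      rw [← psi_one hτ hθ]
      exact single_le_sum (f := fun θ => psi τ A e θ c a) (fun θ _ => psi_nonneg _ _ _ _ _ _)
        (mem_univ θ)
    · exact sum_nonneg fun θ _ => psi_nonneg _ _ _ _ _ _
  -- the displacement term
  have hdisp : ∑ θ, ∑ c : Win n N, ∑ a : Fin n → Fin L, D θ c a ≤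
      32 / τ ^ 2 * ∑ c : Win n N, ∑ a : Fin n → Fin L, bet A e c a := by
    rw [sum3 D, mul_sum]
    refine sum_le_sum fun c _ => ?_
    rw [mul_sum]
    refine sum_le_sum fun a _ => ?_
    simp only [D]
    rw [← mul_sum]
    have h1 := count_psi hS hτ A e c a
    have h2 := bet_nonneg A e c a
    calc 16 / τ * bet A e c a * ∑ θ, (if psi τ A e θ c a ≠ 0 then (1 : ℝ) else 0) ≤
        16 / τ * bet A e c a * (2 / τ) := mul_le_mul_of_nonneg_left h1 (by positivity)
      _ = 32 / τ ^ 2 * bet A e c a := by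
        field_simp
        ring
  -- the third test
  have hthird : ∑ θ, ∑ k, ∑ c : Win n N, ∑ a : Fin n → Fin L,
        (if (a k : ℕ) = 0 then
          (∑ j, max 0 (psi τ A e θ c a - psi τ A e θ (Function.update c k j) a)) / N
        else 0) ≤
      32 / τ ^ 2 / N * ∑ c : Win n N, ∑ a : Fin n → Fin L, ∑ k, ∑ j, c3 A e c a k j +
        n * (N : ℝ) ^ n * (2 / τ) := by
    have h1 : ∀ (k : Fin n) (c : Win n N) (a : Fin n → Fin L), ∑ θ,
        (if (a k : ℕ) = 0 then
          (∑ j, max 0 (psi τ A e θ c a - psi τ A e θ (Function.update c k j) a)) / N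
        else (0 : ℝ)) ≤ 32 / τ ^ 2 / N * ∑ j, c3 A e c a k j + if a = 0 then 2 / τ else 0 := by
      intro k c a
      have h0 : 0 ≤ 32 / τ ^ 2 / N * ∑ j, c3 A e c a k j :=
        mul_nonneg (by positivity) (sum_nonneg fun j _ => c3_nonneg A e c a k j)
      have h00 : (0 : ℝ) ≤ if a = 0 then 2 / τ else 0 := by split_ifs <;> positivity
      split_ifs with hk ha
      · have hk' : a k = 0 := Fin.ext (by simpa using hk)
        rw [← sum_div, sum_comm]
        have h2 : ∑ j, ∑ θ, max 0 (psi τ A e θ c a - psi τ A e θ (Function.update c k j) a) ≤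
            ∑ j : Fin N, (32 / τ ^ 2 * c3 A e c a k j + 2 / τ) := by
          refine sum_le_sum fun j _ => ?_
          have := sum_jump hS hL hτ A e c a k hk' j
          rwa [if_pos ha] at this
        rw [div_le_iff₀ hNR]
        refine h2.trans (le_of_eq ?_)
        rw [sum_add_distrib, ← mul_sum, sum_const, card_univ, Fintype.card_fin, nsmul_eq_mul]
        field_simp
      · have hk' : a k = 0 := Fin.ext (by simpa using hk)
        rw [← sum_div, sum_comm]
        have h2 : ∑ j, ∑ θ, max 0 (psi τ A e θ c a - psi τ A e θ (Function.update c k j) a) ≤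
            ∑ j : Fin N, (32 / τ ^ 2 * c3 A e c a k j) := by
          refine sum_le_sum fun j _ => ?_
          have := sum_jump hS hL hτ A e c a k hk' j
          rwa [if_neg ha, add_zero] at this
        rw [div_le_iff₀ hNR]
        refine h2.trans (le_of_eq ?_)
        rw [← mul_sum]
        field_simp
        ring
      · simp only [sum_const_zero]
        positivity
      · simp only [sum_const_zero]
        positivity
    calc _ = ∑ k, ∑ c : Win n N, ∑ a : Fin n → Fin L, ∑ θ,
        (if (a k : ℕ) = 0 then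
          (∑ j, max 0 (psi τ A e θ c a - psi τ A e θ (Function.update c k j) a)) / N
        else (0 : ℝ)) := by
          rw [sum_comm]
          refine sum_congr rfl fun k _ => ?_
          rw [sum_comm]
          refine sum_congr rfl fun c _ => ?_
          rw [sum_comm]
      _ ≤ ∑ k, ∑ c : Win n N, ∑ a : Fin n → Fin L,
          (32 / τ ^ 2 / N * ∑ j, c3 A e c a k j + if a = 0 then 2 / τ else 0) :=
          sum_le_sum fun k _ => sum_le_sum fun c _ => sum_le_sum fun a _ => h1 k c a
      _ = _ := by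
          simp only [sum_add_distrib, sum_ite_eq', mem_univ, if_true, ← mul_sum]
          congr 1
          · congr 1
            rw [sum_comm]
            refine sum_congr rfl fun c _ => ?_
            rw [sum_comm]
          · simp only [sum_const, card_univ, Fintype.card_fin, Fintype.card_fun, nsmul_eq_mul]
            push_cast
            ring
  calc _ ≤ _ := hleft
    _ ≤ _ := hsum
    _ = 3 * L * ∑ θ, ∑ c : Win n N, ∑ a : Fin n → Fin L, D θ c a +
        2 * (L * ∑ θ, ∑ k, ∑ c : Win n N, ∑ a : Fin n → Fin L,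
        if (a k : ℕ) = 0 then
          (∑ j, max 0 (psi τ A e θ c a - psi τ A e θ (Function.update c k j) a)) / N
        else 0) := by
        rw [sum_add_distrib, ← mul_sum, ← mul_sum, ← mul_sum]
    _ ≤ 3 * L * (32 / τ ^ 2 * ∑ c : Win n N, ∑ a : Fin n → Fin L, bet A e c a) +
        2 * (L * (32 / τ ^ 2 / N * ∑ c : Win n N, ∑ a : Fin n → Fin L, ∑ k, ∑ j, c3 A e c a k j +
        n * (N : ℝ) ^ n * (2 / τ))) :=
        add_le_add (mul_le_mul_of_nonneg_left hdisp (by positivity))
          (mul_le_mul_of_nonneg_left (mul_le_mul_of_nonneg_left hthird hLR.le) (by norm_num))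
    _ = _ := by ring

end

end Vale.Agent.P325.K2.H462
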