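import Vale.Agent.P325.H462.K2.Per

/-!
# Soundness: the choice of the constants and the average over the tuples of constraints
-/

namespace Vale.Agent.P325.K2.H462

open Finset Vale.Agent.Lib.PCP Vale.Agent.P342 Vale.Agent.P325.K2

/-- The bound for the probability that some coarse group is significant for many windows. -/
def BadThm : Prop :=
  ∀ (n N r L : ℕ) [NeZero n] [NeZero N] [NeZero r] [NeZero L] (Em τ τ' η t : ℝ) (J : ℕ),
    0 < τ → 0 < τ' → StructAt Em (τ / 4) τ' → 1 / τ' ≤ J → 2 / τ ≤ J → 0 ≤ t →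
    ∀ (G : PG ℕ ℕ (Fin r) (Fin r)), G ≠ [] → G.Sound η →
    ∀ A : Asg n N r, Odd' A →
      Pr (fun p : Win n N → Fin G.length => ∃ θ,
        t ≤ Pr (fun z : Win n N × (Fin n → Fin L) => τ / 2 ≤ sig A (eo G p) z.1 z.2 θ)) * t ^ 2 ≤
      (J : ℝ) ^ 2 * η + (n : ℝ) / N +
        Pr (fun q : (Win n N → Fin G.length) × Win n N × (Fin n → Fin L) =>
          Em < en A (eo G q.1) q.2.1 q.2.2)

theorem Ex_sum2 {P C D : Type} [Fintype P] [Fintype C] [Fintype D] [Nonempty C] [Nonempty D]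
    (f : P → C → D → ℝ) :
    Ex (fun p => ∑ c, ∑ d, f p c d) =
      Fintype.card (C × D) * Ex (fun q : P × C × D => f q.1 q.2.1 q.2.2) := by
  rw [Ex_prod, ← Ex_const_mul]
  refine Ex_congr fun p => ?_
  have h : (Fintype.card (C × D) : ℝ) ≠ 0 := by exact_mod_cast Fintype.card_ne_zero
  rw [Ex, Fintype.sum_prod_type]
  field_simp

theorem card_inst {α : Type} [Fintype α] (p : α → Prop) (i1 i2 : DecidablePred p) :
    (@Finset.filter α p i1 univ).card = (@Finset.filter α p i2 univ).card := by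
  rw [Subsingleton.elim i1 i2]

section

variable {n N r L : ℕ} [NeZero n] [NeZero N] [NeZero r] [NeZero L]

omit [NeZero n] [NeZero N] [NeZero L] in
theorem cardZ : (Fintype.card (Win n N × (Fin n → Fin L)) : ℝ) = (N : ℝ) ^ n * (L : ℝ) ^ n := by
  simp only [Fintype.card_prod, Fintype.card_fun, Fintype.card_fin]
  push_cast
  rfl

omit [NeZero r] in
open Classical in
theorem supp_of_good {τ : ℝ} (hτ : 0 < τ) (A : Asg n N r) (e : Win n N → Ed r) (θ : Lab n N r)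
    (h : Pr (fun z : Win n N × (Fin n → Fin L) => τ / 2 ≤ sig A e z.1 z.2 θ) <
      1 / (4 * n) ^ (2 * n)) :
    (#{z : Win n N × (Fin n → Fin L) | psi τ A e θ z.1 z.2 ≠ 0} : ℝ) * (4 * n) ^ (2 * n) <
      (N : ℝ) ^ n * (L : ℝ) ^ n := by
  have hn : 0 < n := Nat.pos_of_ne_zero (NeZero.ne n)
  have hN : 0 < N := Nat.pos_of_ne_zero (NeZero.ne N)
  have hL : 0 < L := Nat.pos_of_ne_zero (NeZero.ne L)
  have hnR : (0 : ℝ) < n := by exact_mod_cast hn
  have hNR : (0 : ℝ) < N := by exact_mod_cast hN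
  have hLR : (0 : ℝ) < L := by exact_mod_cast hL
  have h1 : Pr (fun z : Win n N × (Fin n → Fin L) => psi τ A e θ z.1 z.2 ≠ 0) <
      1 / (4 * n) ^ (2 * n) :=
    lt_of_le_of_lt (Pr_mono fun z hz => psi_supp hτ hz) h
  rw [Pr_eq_card, cardZ, div_lt_div_iff₀ (by positivity) (by positivity), one_mul] at h1
  rw [card_inst (fun z : Win n N × (Fin n → Fin L) => psi τ A e θ z.1 z.2 ≠ 0) _
    (fun z => Classical.propDecidable _)]
  exact h1

/-- The average over the tuples of constraints. -/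
theorem avg_e (hP : PruneThm) (hS : SumThm) (hL : LipThm) (hW : WinThm) (hG : SigThm)
    {E τ : ℝ} (hτ : 0 < τ) (hst : StructAt E (1 / 2) τ) (G : PG ℕ ℕ (Fin r) (Fin r))
    (hG0 : G ≠ []) (A : Asg n N r) (hA : Odd' A) :
    1 - Pr (fun q : (Win n N → Fin G.length) × Win n N × (Fin n → Fin L) =>
        E < en A (eo G q.1) q.2.1 q.2.2) ≤
      96 * L / τ ^ 2 * Ex (fun q : (Win n N → Fin G.length) × Win n N × (Fin n → Fin L) =>
        bet A (eo G q.1) q.2.1 q.2.2) +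
      64 * L / τ ^ 2 / N * Ex (fun q : (Win n N → Fin G.length) × Win n N × (Fin n → Fin L) =>
        ∑ k, ∑ j, c3 A (eo G q.1) q.2.1 q.2.2 k j) +
      4 * n * L / (τ * (L : ℝ) ^ n) +
      Pr (fun p : Win n N → Fin G.length => ∃ θ, 1 / (4 * n) ^ (2 * n) ≤
        Pr (fun z : Win n N × (Fin n → Fin L) => τ / 2 ≤ sig A (eo G p) z.1 z.2 θ)) := by
  classical
  have hn : 0 < n := Nat.pos_of_ne_zero (NeZero.ne n)
  have hN : 0 < N := Nat.pos_of_ne_zero (NeZero.ne N)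
  have hL0 : 0 < L := Nat.pos_of_ne_zero (NeZero.ne L)
  have hnR : (0 : ℝ) < n := by exact_mod_cast hn
  have hNR : (0 : ℝ) < N := by exact_mod_cast hN
  have hLR : (0 : ℝ) < L := by exact_mod_cast hL0
  have : Nonempty (Fin G.length) := ⟨⟨0, List.length_pos_iff.2 hG0⟩⟩
  set Z : ℝ := (Fintype.card (Win n N × (Fin n → Fin L)) : ℝ) with hZ
  have hZe : Z = (N : ℝ) ^ n * (L : ℝ) ^ n := cardZ
  have hZ0 : 0 < Z := by rw [hZe]; positivity
  -- the inequality for each tuple of constraints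
  have h1 : ∀ p : Win n N → Fin G.length,
      ∑ c : Win n N, ∑ a : Fin n → Fin L, (if en A (eo G p) c a ≤ E then (1 : ℝ) else 0) ≤
      3 * L * (32 / τ ^ 2) * ∑ c : Win n N, ∑ a : Fin n → Fin L, bet A (eo G p) c a +
      2 * L * (32 / τ ^ 2 / N *
        ∑ c : Win n N, ∑ a : Fin n → Fin L, ∑ k, ∑ j, c3 A (eo G p) c a k j) +
      2 * L * (n * (N : ℝ) ^ n * (2 / τ)) +
      Z * (if (∃ θ, 1 / (4 * n) ^ (2 * n) ≤
        Pr (fun z : Win n N × (Fin n → Fin L) => τ / 2 ≤ sig A (eo G p) z.1 z.2 θ)) then 1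
        else 0) := by
    intro p
    split_ifs with hbad
    · have h2 : ∑ c : Win n N, ∑ a : Fin n → Fin L,
          (if en A (eo G p) c a ≤ E then (1 : ℝ) else 0) ≤ Z := by
        calc _ ≤ ∑ c : Win n N, ∑ a : Fin n → Fin L, (1 : ℝ) :=
              sum_le_sum fun c _ => sum_le_sum fun a _ => by split_ifs <;> norm_num
          _ = Z := by
              rw [hZ, Fintype.card_prod]
              simp only [sum_const, card_univ, nsmul_eq_mul, mul_one]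
              push_cast
              rfl
      have h3 : 0 ≤ 3 * L * (32 / τ ^ 2) *
          ∑ c : Win n N, ∑ a : Fin n → Fin L, bet A (eo G p) c a :=
        mul_nonneg (by positivity) (sum_nonneg fun c _ => sum_nonneg fun a _ =>
          bet_nonneg _ _ _ _)
      have h4 : 0 ≤ 2 * L * (32 / τ ^ 2 / N *
          ∑ c : Win n N, ∑ a : Fin n → Fin L, ∑ k, ∑ j, c3 A (eo G p) c a k j) :=
        mul_nonneg (by positivity) (mul_nonneg (by positivity)
          (sum_nonneg fun c _ => sum_nonneg fun a _ => sum_nonneg fun k _ =>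
            sum_nonneg fun j _ => c3_nonneg _ _ _ _ _ _))
      have h5 : 0 ≤ 2 * (L : ℝ) * (n * (N : ℝ) ^ n * (2 / τ)) := by positivity
      linarith
    · push Not at hbad
      have h2 := per_e hP hS hL hW hG hτ hst A hA (eo G p)
        (fun θ => supp_of_good hτ A (eo G p) θ (hbad θ))
      rw [mul_zero, add_zero]
      refine h2.trans (le_of_eq ?_)
      ring
  have h2 := Ex_mono h1
  rw [Ex_add, Ex_add, Ex_add, Ex_const (2 * (L : ℝ) * (n * (N : ℝ) ^ n * (2 / τ))),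
    Ex_const_mul, Ex_const_mul, Ex_const_mul, Ex_const_mul Z,
    Ex_sum2 (fun (p : Win n N → Fin G.length) c a =>
      (if en A (eo G p) c a ≤ E then (1 : ℝ) else 0)),
    Ex_sum2 (fun (p : Win n N → Fin G.length) c a => bet A (eo G p) c a),
    Ex_sum2 (fun (p : Win n N → Fin G.length) c a => ∑ k, ∑ j, c3 A (eo G p) c a k j)] at h2
  have h3 : Ex (fun q : (Win n N → Fin G.length) × Win n N × (Fin n → Fin L) =>
      if en A (eo G q.1) q.2.1 q.2.2 ≤ E then (1 : ℝ) else 0) =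
      1 - Pr (fun q : (Win n N → Fin G.length) × Win n N × (Fin n → Fin L) =>
        E < en A (eo G q.1) q.2.1 q.2.2) := by
    rw [← Pr_not]
    unfold Pr
    refine Ex_congr fun q => ?_
    by_cases h : en A (eo G q.1) q.2.1 q.2.2 ≤ E
    · rw [if_pos h, if_pos (not_lt.2 h)]
    · rw [if_neg h, if_neg (not_not.2 (not_le.1 h))]
  rw [h3, ← hZ] at h2
  set X1 := Pr (fun q : (Win n N → Fin G.length) × Win n N × (Fin n → Fin L) =>
        E < en A (eo G q.1) q.2.1 q.2.2)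
  set X2 := Ex (fun q : (Win n N → Fin G.length) × Win n N × (Fin n → Fin L) =>
        bet A (eo G q.1) q.2.1 q.2.2)
  set X3 := Ex (fun q : (Win n N → Fin G.length) × Win n N × (Fin n → Fin L) =>
        ∑ k, ∑ j, c3 A (eo G q.1) q.2.1 q.2.2 k j)
  have h4 : Z * (1 - X1) ≤ Z * (96 * L / τ ^ 2 * X2 + 64 * L / τ ^ 2 / N * X3 +
      4 * n * L / (τ * (L : ℝ) ^ n) +
      Pr (fun p : Win n N → Fin G.length => ∃ θ, 1 / (4 * n) ^ (2 * n) ≤
        Pr (fun z : Win n N × (Fin n → Fin L) => τ / 2 ≤ sig A (eo G p) z.1 z.2 θ))) := by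
    refine h2.trans (le_of_eq ?_)
    have h5 : 2 * (L : ℝ) * (n * (N : ℝ) ^ n * (2 / τ)) =
        Z * (4 * n * L / (τ * (L : ℝ) ^ n)) := by
      rw [hZe]
      field_simp
      ring
    rw [h5]
    unfold Pr
    ring_nf
  exact le_of_mul_le_mul_left h4 hZ0

omit [NeZero N] [NeZero r] in
theorem en_nonneg (A : Asg n N r) (e : Win n N → Ed r) (c : Win n N) (a : Fin n → Fin L) :
    0 ≤ en A e c a :=
  Ex_nonneg fun _ => sum_nonneg fun _ _ => Real.sqrt_nonneg _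

end

theorem num1 {L τ s E1 : ℝ} (hL : 0 < L) (hτ : 0 < τ) (hs : 0 < s)
    (h : 384 * E1 / τ ^ 2 ≤ s) : 96 * L / τ ^ 2 * (E1 / (L * s)) ≤ 1 / 4 := by
  rw [div_le_iff₀ (by positivity)] at h
  rw [div_mul_div_comm, div_le_div_iff₀ (by positivity) (by norm_num)]
  have := mul_le_mul_of_nonneg_left h hL.le
  linarith

theorem num2 {L τ N X C W : ℝ} (hL : 0 < L) (hτ : 0 < τ) (hN : 1 ≤ N) (hW : 0 < W)
    (hX0 : 0 ≤ X) (hX : X ≤ C / W) (h : 1024 * L * C / τ ^ 2 ≤ W) :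
    64 * L / τ ^ 2 / N * X ≤ 1 / 16 := by
  have h1 : 64 * L / τ ^ 2 / N * X ≤ 64 * L / τ ^ 2 * (C / W) :=
    mul_le_mul (div_le_self (by positivity) hN) hX hX0 (by positivity)
  refine h1.trans ?_
  rw [div_le_iff₀ (by positivity)] at h
  rw [div_mul_div_comm, div_le_div_iff₀ (by positivity) (by norm_num)]
  linarith

theorem num3 {L τ : ℝ} {n : ℕ} (hL : 1 ≤ L) (hτ : 0 < τ) (hn : 2 ≤ n)
    (h : 64 * n / τ ≤ L) : 4 * n * L / (τ * L ^ n) ≤ 1 / 16 := by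
  have hL0 : 0 < L := by linarith
  rw [div_le_iff₀ hτ] at h
  rw [div_le_div_iff₀ (by positivity) (by norm_num)]
  have h1 : L ^ 2 ≤ L ^ n := pow_le_pow_right₀ hL hn
  have h2 : τ * L ^ 2 ≤ τ * L ^ n := mul_le_mul_of_nonneg_left h1 hτ.le
  have h3 := mul_le_mul_of_nonneg_left h hL0.le
  linarith

/-- The inequalities between the constants do not allow a small cost. -/
theorem sound_core (hW : WinThm) (hG : SigThm)
    (hP : PruneThm) (hS : SumThm) (hL : LipThm) (hB : BadThm) {n N r L W : ℕ} [NeZero n]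
    [NeZero N] [NeZero r] [NeZero L] {C E1 τ τ' t Em η : ℝ} {J : ℕ} (hn3 : 3 ≤ n) (hC : 0 < C)
    (hE1 : 0 < E1) (hτ : 0 < τ) (hst : StructAt (4 * E1) (1 / 2) τ)
    (hsn : 384 * E1 / τ ^ 2 ≤ Real.sqrt n)
    (htd : t = 1 / (4 * n) ^ (2 * n)) (hN : (n : ℝ) / N ≤ t ^ 2 / 32)
    (hEmd : Em = 32 * E1 / t ^ 2) (hτ' : 0 < τ') (hst' : StructAt Em (τ / 4) τ')
    (hJ1 : 1 / τ' ≤ J) (hJ2 : 2 / τ ≤ J) (hJη : (J : ℝ) ^ 2 * η ≤ t ^ 2 / 32)
    (hLn : 64 * n / τ ≤ (L : ℝ))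
    (hLP : ∀ (π : Win n N → Fin r → Fin r) (c : Win n N),
      Ex (fun a : Fin n → Fin L => pairs n L (adr π c) a) ≤ 1 / Real.sqrt n / L)
    (hW0 : (0 : ℝ) < W) (hWL : 1024 * L * C / τ ^ 2 ≤ (W : ℝ))
    (hnu : C * nu n L ≤ (E1 - 1) / (L * Real.sqrt n))
    (G : PG ℕ ℕ (Fin r) (Fin r)) (hG0 : G ≠ []) (hGs : G.Sound η) (A : Asg n N r) (hA : Odd' A) :
    C * nu n L < cost L W G A := by
  classical
  by_contra hcost
  push Not at hcost
  have hnR : (0 : ℝ) < n := by exact_mod_cast (by omega : 0 < n)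
  have hsq : 0 < Real.sqrt n := Real.sqrt_pos.2 hnR
  have ht : 0 < t := by rw [htd]; positivity
  have hN1 : (1 : ℝ) ≤ N := by exact_mod_cast Nat.pos_of_ne_zero (NeZero.ne N)
  have hEm : 0 < Em := by rw [hEmd]; positivity
  have hL1 : (1 : ℝ) ≤ L := by exact_mod_cast Nat.pos_of_ne_zero (NeZero.ne L)
  have hLR : (0 : ℝ) < L := by linarith
  have hne : Nonempty (Fin G.length) := ⟨⟨0, List.length_pos_iff.2 hG0⟩⟩
  have hnu1 : nu n L ≤ 1 := Pr_le_one _
  -- the averages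
  obtain ⟨X1, hX1⟩ : ∃ X1 : ℝ, X1 = Ex (fun q : (Win n N → Fin G.length) × Win n N ×
      (Fin n → Fin L) => c1 A (eo G q.1) q.2.1 q.2.2) := ⟨_, rfl⟩
  obtain ⟨X2, hX2⟩ : ∃ X2 : ℝ, X2 = Ex (fun q : (Win n N → Fin G.length) × Win n N ×
      (Fin n → Fin L) => pairs n L (adr (prj (eo G q.1)) q.2.1) q.2.2) := ⟨_, rfl⟩
  obtain ⟨X3, hX3⟩ : ∃ X3 : ℝ, X3 = Ex (fun q : (Win n N → Fin G.length) × Win n N ×
      (Fin n → Fin L) => ∑ k, ∑ j, c3 A (eo G q.1) q.2.1 q.2.2 k j) := ⟨_, rfl⟩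
  have hX1n : 0 ≤ X1 := by rw [hX1]; exact Ex_nonneg fun q => c1_nonneg _ _ _ _
  have hX3n : 0 ≤ X3 := by
    rw [hX3]
    exact Ex_nonneg fun q => sum_nonneg fun k _ => sum_nonneg fun j _ => c3_nonneg _ _ _ _ _ _
  have hcs : cost L W G A = X1 + W * X3 := by
    unfold cost
    rw [Ex_add, Ex_const_mul, hX1, hX3]
  have hX1le : X1 ≤ (E1 - 1) / (L * Real.sqrt n) := by
    have : 0 ≤ (W : ℝ) * X3 := by positivity
    linarith
  have hX3le : X3 ≤ C / W := by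
    rw [le_div_iff₀ hW0]
    have h2 : C * nu n L ≤ C * 1 := mul_le_mul_of_nonneg_left hnu1 hC.le
    linarith
  have hX2le : X2 ≤ 1 / (L * Real.sqrt n) := by
    rw [hX2, Ex_prod]
    calc _ ≤ Ex (fun _ : Win n N → Fin G.length => 1 / (L * Real.sqrt n)) := by
          refine Ex_mono fun p => ?_
          rw [Ex_prod]
          calc _ ≤ Ex (fun _ : Win n N => 1 / (L * Real.sqrt n)) := by
                refine Ex_mono fun c => ?_
                refine (hLP (prj (eo G p)) c).trans (le_of_eq ?_)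
                field_simp
            _ = _ := Ex_const _
      _ = _ := Ex_const _
  obtain ⟨X4, hX4⟩ : ∃ X4 : ℝ, X4 = Ex (fun q : (Win n N → Fin G.length) × Win n N ×
      (Fin n → Fin L) => bet A (eo G q.1) q.2.1 q.2.2) := ⟨_, rfl⟩
  have hbet : X4 ≤ E1 / (L * Real.sqrt n) := by
    have h1 : X4 = X1 + X2 := by
      rw [hX4]
      unfold bet
      rw [Ex_add, hX1, hX2]
    have h2 : E1 / (L * Real.sqrt n) = (E1 - 1) / (L * Real.sqrt n) + 1 / (L * Real.sqrt n) := by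
      rw [← add_div, sub_add_cancel]
    rw [h1, h2]
    exact add_le_add hX1le hX2le
  have hen : Ex (fun q : (Win n N → Fin G.length) × Win n N × (Fin n → Fin L) =>
      en A (eo G q.1) q.2.1 q.2.2) ≤ E1 := by
    have h1 : Ex (fun q : (Win n N → Fin G.length) × Win n N × (Fin n → Fin L) =>
        en A (eo G q.1) q.2.1 q.2.2) ≤
        Ex (fun q : (Win n N → Fin G.length) × Win n N × (Fin n → Fin L) =>
          (L * Real.sqrt n) * bet A (eo G q.1) q.2.1 q.2.2) :=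
      Ex_mono fun q => (hW n N r L A (eo G q.1) q.2.1 q.2.2).1
    rw [Ex_const_mul, ← hX4] at h1
    refine h1.trans ?_
    rw [mul_comm, ← le_div_iff₀ (by positivity)]
    exact hbet
  -- the bad windows
  have hM1 : Pr (fun q : (Win n N → Fin G.length) × Win n N × (Fin n → Fin L) =>
      4 * E1 < en A (eo G q.1) q.2.1 q.2.2) ≤ 1 / 4 := by
    refine (Pr_le_of_Ex (fun q => en_nonneg _ _ _ _) (by positivity)).trans ?_
    rw [div_le_div_iff₀ (by positivity) (by norm_num)]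
    linarith
  have hM2 : Pr (fun q : (Win n N → Fin G.length) × Win n N × (Fin n → Fin L) =>
      Em < en A (eo G q.1) q.2.1 q.2.2) ≤ t ^ 2 / 32 := by
    refine (Pr_le_of_Ex (fun q => en_nonneg _ _ _ _) hEm).trans ?_
    rw [div_le_div_iff₀ hEm (by norm_num), hEmd, mul_div_cancel₀ _ (by positivity)]
    linarith
  have hbad := hB n N r L Em τ τ' η t J hτ hτ' hst' hJ1 hJ2 ht.le G hG0 hGs A hA
  have havg := avg_e (L := L) hP hS hL hW hG hτ hst G hG0 A hA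
  rw [← htd, ← hX3, ← hX4] at havg
  obtain ⟨X5, hX5⟩ : ∃ X5 : ℝ, X5 = Pr (fun p : Win n N → Fin G.length => ∃ θ,
      t ≤ Pr (fun z : Win n N × (Fin n → Fin L) => τ / 2 ≤ sig A (eo G p) z.1 z.2 θ)) :=
    ⟨_, rfl⟩
  rw [← hX5] at havg hbad
  have hbad2 : X5 ≤ 3 / 32 := by
    have h1 : X5 * t ^ 2 ≤ 3 / 32 * t ^ 2 := by linarith
    exact le_of_mul_le_mul_right h1 (by positivity)
  -- the three small terms
  have hT1 : 96 * L / τ ^ 2 * X4 ≤ 1 / 4 :=
    (mul_le_mul_of_nonneg_left hbet (by positivity)).trans (num1 hLR hτ hsq hsn)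
  have hT2 : 64 * L / τ ^ 2 / N * X3 ≤ 1 / 16 := num2 hLR hτ hN1 hW0 hX3n hX3le hWL
  have hT3 : 4 * n * L / (τ * (L : ℝ) ^ n) ≤ 1 / 16 := num3 hL1 hτ (by omega) hLn
  linarith

/-- Soundness. -/
theorem soundThm' (hAC : ACThm) (hPA : PairAvg) (hSt : StructThm) (hW : WinThm) (hG : SigThm)
    (hP : PruneThm) (hS : SumThm) (hL : LipThm) (hB : BadThm) : SoundThm := by
  intro C1
  obtain ⟨C, hC, hCC⟩ : ∃ C : ℝ, 0 < C ∧ C1 ≤ C :=
    ⟨max C1 1, lt_of_lt_of_le one_pos (le_max_right _ _), le_max_left _ _⟩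
  obtain ⟨C0, hC0, hAC⟩ := hAC
  obtain ⟨E1, hE1d⟩ : ∃ E1 : ℝ, E1 = C * C0 + 1 := ⟨_, rfl⟩
  have hE1 : 0 < E1 := by rw [hE1d]; positivity
  obtain ⟨τ, hτ, hst⟩ := hSt (4 * E1) (1 / 2) (by norm_num)
  -- the number of slots
  obtain ⟨n, hn3, hsn⟩ : ∃ n : ℕ, 3 ≤ n ∧ 384 * E1 / τ ^ 2 ≤ Real.sqrt n := by
    obtain ⟨m, hm⟩ := exists_nat_ge ((384 * E1 / τ ^ 2) ^ 2)
    refine ⟨m + 3, by omega, Real.le_sqrt_of_sq_le (hm.trans ?_)⟩
    push_cast
    linarith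
  have hn0 : NeZero n := ⟨by omega⟩
  have hnR : (0 : ℝ) < n := by exact_mod_cast (by omega : 0 < n)
  obtain ⟨t, htd⟩ : ∃ t : ℝ, t = 1 / (4 * n) ^ (2 * n) := ⟨_, rfl⟩
  have ht : 0 < t := by rw [htd]; positivity
  -- the number of legs
  obtain ⟨N, hN0, hN⟩ : ∃ N : ℕ, 0 < N ∧ (n : ℝ) / N ≤ t ^ 2 / 32 := by
    obtain ⟨m, hm⟩ := exists_nat_ge (32 * n / t ^ 2)
    refine ⟨m + 1, by omega, ?_⟩
    have h1 : (0 : ℝ) < ((m + 1 : ℕ) : ℝ) := by positivity
    rw [div_le_iff₀ (by positivity)] at hm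
    rw [div_le_div_iff₀ h1 (by norm_num)]
    push_cast
    linarith [sq_nonneg t]
  have hN0' : NeZero N := ⟨by omega⟩
  obtain ⟨Em, hEmd⟩ : ∃ Em : ℝ, Em = 32 * E1 / t ^ 2 := ⟨_, rfl⟩
  obtain ⟨τ', hτ', hst'⟩ := hSt Em (τ / 4) (by positivity)
  obtain ⟨J, hJ⟩ := exists_nat_ge (max (1 / τ') (2 / τ))
  have hJ1 : 1 / τ' ≤ J := (le_max_left _ _).trans hJ
  have hJ2 : 2 / τ ≤ J := (le_max_right _ _).trans hJ
  obtain ⟨η, hηd⟩ : ∃ η : ℝ, η = t ^ 2 / (32 * ((J : ℝ) ^ 2 + 1)) := ⟨_, rfl⟩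
  have hη : 0 < η := by rw [hηd]; positivity
  have hJη : (J : ℝ) ^ 2 * η ≤ t ^ 2 / 32 := by
    rw [hηd, mul_div_assoc', div_le_div_iff₀ (by positivity) (by norm_num)]
    linarith [sq_nonneg t]
  refine ⟨n, N, hn0, hN0', η, hη, ?_⟩
  intro r hr
  -- the length
  obtain ⟨L, hLe, hL2, hLn, hLP⟩ : ∃ L : ℕ, Even L ∧ 2 ≤ L ∧ 64 * n / τ ≤ (L : ℝ) ∧
      ∀ (π : Win n N → Fin r → Fin r) (c : Win n N),
      Ex (fun a : Fin n → Fin L => pairs n L (adr π c) a) ≤ 1 / Real.sqrt n / L := by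
    obtain ⟨L0, hL0⟩ := hPA n N r hn3 (1 / Real.sqrt n) (by positivity)
    obtain ⟨M, hM⟩ := exists_nat_ge (64 * n / τ)
    refine ⟨2 * (L0 + M + 1), even_two_mul _, by omega, hM.trans ?_, ?_⟩
    · push_cast
      have h1 : (0 : ℝ) ≤ L0 := Nat.cast_nonneg _
      have h2 : (0 : ℝ) ≤ M := Nat.cast_nonneg _
      linarith
    · exact hL0 _ (by omega) (even_two_mul _)
  have hL0 : NeZero L := ⟨by omega⟩
  obtain ⟨W, hW0, hWL⟩ : ∃ W : ℕ, (0 : ℝ) < W ∧ 1024 * L * C / τ ^ 2 ≤ (W : ℝ) := by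
    obtain ⟨m, hm⟩ := exists_nat_ge (1024 * L * C / τ ^ 2)
    refine ⟨m + 1, by positivity, hm.trans ?_⟩
    push_cast
    linarith
  have hnu : C * nu n L ≤ (E1 - 1) / (L * Real.sqrt n) := by
    rw [hE1d, add_sub_cancel_right, mul_div_assoc]
    exact mul_le_mul_of_nonneg_left (hAC n L hn3 hL2 hLe) hC.le
  refine ⟨L, W, hL0, ?_⟩
  intro G hG0 hGs A hA
  have h1 := sound_core hW hG hP hS hL hB hn3 hC hE1 hτ hst hsn htd hN hEmd hτ' hst' hJ1 hJ2
    hJη hLn hLP hW0 hWL hnu G hG0 hGs A hA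
  have hnu0 : 0 ≤ nu n L := Pr_nonneg _
  exact lt_of_le_of_lt (mul_le_mul_of_nonneg_right hCC hnu0) h1

end Vale.Agent.P325.K2.H462
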